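import Mathlib

set_option autoImplicit false

open Finset Classical

namespace Vale.Agent.P038.H781

variable {V : Type*} [Fintype V]

/-- closed out-neighbourhood of a set for the (reflexive) relation `n` -/
noncomputable def N (n : V → V → Prop) (S : Finset V) : Finset V :=
  univ.filter fun v => ∃ s ∈ S, n s v

lemma mem_N {n : V → V → Prop} {S : Finset V} {v : V} : v ∈ N n S ↔ ∃ s ∈ S, n s v := by
  simp [N]

lemma N_mono {n : V → V → Prop} {S T : Finset V} (h : S ⊆ T) : N n S ⊆ N n T := by
  intro v hv
  rw [mem_N] at hv ⊢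
  obtain ⟨s, hs, h1⟩ := hv
  exact ⟨s, h hs, h1⟩

/-- deficiency function -/
noncomputable def m (n : V → V → Prop) (G β W : Finset V) : ℕ :=
  G.powerset.sup fun T => T.card - ((N n T \ β) \ W).card

lemma le_m {n : V → V → Prop} {G β W T : Finset V} (h : T ⊆ G) :
    T.card ≤ m n G β W + ((N n T \ β) \ W).card := by
  have := Finset.le_sup (f := fun T => T.card - ((N n T \ β) \ W).card) (mem_powerset.2 h)
  unfold m
  omega

lemma exists_m (n : V → V → Prop) (G β W : Finset V) :
    ∃ T ⊆ G, m n G β W + ((N n T \ β) \ W).card = T.card := by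
  obtain ⟨T, hT, h⟩ := Finset.exists_mem_eq_sup G.powerset ⟨∅, empty_mem_powerset G⟩
    (fun T => T.card - ((N n T \ β) \ W).card)
  rw [mem_powerset] at hT
  by_cases hc : ((N n T \ β) \ W).card ≤ T.card
  · refine ⟨T, hT, ?_⟩
    unfold m; rw [h]; omega
  · refine ⟨∅, empty_subset _, ?_⟩
    have : m n G β W = 0 := by unfold m; rw [h]; omega
    rw [this]; simp [N]

lemma m_mono {n : V → V → Prop} {G β W : Finset V} {u : V} :
    m n G β W ≤ m n G β (insert u W) := by
  obtain ⟨T, hT, h⟩ := exists_m n G β W
  have h1 := le_m (n := n) (β := β) (W := insert u W) hT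
  have h2 : ((N n T \ β) \ (insert u W)).card ≤ ((N n T \ β) \ W).card :=
    card_le_card (sdiff_subset_sdiff (le_refl _) (subset_insert _ _))
  omega

lemma m_succ {n : V → V → Prop} {G β W : Finset V} {u : V} :
    m n G β (insert u W) ≤ m n G β W + 1 := by
  obtain ⟨T, hT, h⟩ := exists_m n G β (insert u W)
  have h1 := le_m (n := n) (β := β) (W := W) hT
  have h2 : ((N n T \ β) \ W).card ≤ ((N n T \ β) \ (insert u W)).card + 1 := by
    have : (N n T \ β) \ W ⊆ insert u ((N n T \ β) \ (insert u W)) := by
      intro v hv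
      simp only [mem_sdiff, mem_insert] at hv ⊢
      tauto
    exact (card_le_card this).trans (card_insert_le _ _)
  omega

lemma m_same {n : V → V → Prop} {G β W : Finset V} {u : V} (hu : u ∉ N n G \ β) :
    m n G β (insert u W) ≤ m n G β W := by
  obtain ⟨T, hT, h⟩ := exists_m n G β (insert u W)
  have h1 := le_m (n := n) (β := β) (W := W) hT
  have h2 : ((N n T \ β) \ W).card ≤ ((N n T \ β) \ (insert u W)).card := by
    apply card_le_card
    intro v hv
    simp only [mem_sdiff, mem_insert] at hv hu ⊢
    have : v ≠ u := by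
      rintro rfl
      exact hu ⟨N_mono hT hv.1.1, hv.1.2⟩
    tauto
  omega

lemma m_univ {n : V → V → Prop} {G β : Finset V} : m n G β univ = G.card := by
  apply le_antisymm
  · obtain ⟨T, hT, h⟩ := exists_m n G β univ
    have := card_le_card hT
    omega
  · have := le_m (n := n) (β := β) (W := univ) (le_refl G)
    have e : (N n G \ β) \ univ = ∅ := by
      apply Finset.eq_empty_of_forall_notMem
      intro x hx
      exact (mem_sdiff.1 hx).2 (mem_univ x)
    rw [e, card_empty] at this
    exact this

lemma m_empty {n : V → V → Prop} {G β : Finset V}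
    (h : ∀ T ⊆ G, T.card ≤ (N n T \ β).card) : m n G β ∅ = 0 := by
  obtain ⟨T, hT, h1⟩ := exists_m n G β ∅
  have := h T hT
  simp only [sdiff_empty] at h1
  omega

lemma exch {n : V → V → Prop} {P G βz βa Ba W : Finset V} {u : V}
    (hPG : ∀ x ∈ P, x ∉ Ba → x ∈ G) (hGB : ∀ x ∈ G, x ∉ Ba)
    (hβ : βa = N n Ba) (hzβ : βz ⊆ βa) (hu : u ∉ βa) :
    m n P βz (insert u W) + m n G βa W ≤ m n P βz W + m n G βa (insert u W) := by
  obtain ⟨T, hT, h1⟩ := exists_m n P βz (insert u W)
  obtain ⟨T', hT', h2⟩ := exists_m n G βa W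
  set T1 := (T ∩ Ba) ∪ (T ∩ T') with hT1
  set T2 := T' ∪ (T \ Ba) with hT2
  have e1 : T1 ∪ T2 = T ∪ T' := by
    ext x; simp only [hT1, hT2, mem_union, mem_inter, mem_sdiff]
    by_cases p1 : x ∈ T <;> by_cases p2 : x ∈ T' <;> by_cases p3 : x ∈ Ba <;> simp [p1, p2, p3]
  have e2 : T1 ∩ T2 = T ∩ T' := by
    ext x; simp only [hT1, hT2, mem_union, mem_inter, mem_sdiff]
    have := fun h : x ∈ T' => hGB x (hT' h)
    by_cases p1 : x ∈ T <;> by_cases p2 : x ∈ T' <;> by_cases p3 : x ∈ Ba <;>
      simp [p1, p2, p3] at this ⊢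
  have c1 := card_union_add_card_inter T1 T2
  have c2 := card_union_add_card_inter T T'
  rw [e1, e2] at c1
  have s1 : T1 ⊆ P := by
    intro x hx
    simp only [hT1, mem_union, mem_inter] at hx
    exact hT (by tauto)
  have s2 : T2 ⊆ G := by
    intro x hx
    simp only [hT2, mem_union, mem_sdiff] at hx
    rcases hx with h | ⟨h, h'⟩
    · exact hT' h
    · exact hPG x (hT h) h'
  have l1 := le_m (n := n) (β := βz) (W := W) s1
  have l2 := le_m (n := n) (β := βa) (W := insert u W) s2
  -- facts on neighbourhoods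
  have f1 : ∀ v, v ∈ N n T1 → v ∈ N n T := fun v hv => by
    rw [mem_N] at hv ⊢
    obtain ⟨s, hs, h⟩ := hv
    refine ⟨s, ?_, h⟩
    simp only [hT1, mem_union, mem_inter] at hs; tauto
  have f2 : ∀ v, v ∉ βa → v ∈ N n T1 → v ∈ N n T' := fun v hb hv => by
    rw [mem_N] at hv ⊢
    obtain ⟨s, hs, h⟩ := hv
    simp only [hT1, mem_union, mem_inter] at hs
    rcases hs with hs | hs
    · exact absurd (hβ ▸ mem_N.2 ⟨s, hs.2, h⟩) hb
    · exact ⟨s, hs.2, h⟩
  have f3 : ∀ v, v ∈ N n T2 → v ∈ N n T' ∨ v ∈ N n T := fun v hv => by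
    rw [mem_N] at hv
    obtain ⟨s, hs, h⟩ := hv
    simp only [hT2, mem_union, mem_sdiff] at hs
    rcases hs with hs | hs
    · exact Or.inl (mem_N.2 ⟨s, hs, h⟩)
    · exact Or.inr (mem_N.2 ⟨s, hs.1, h⟩)
  have g1 : ((N n T1 \ βz) \ W) ∪ ((N n T2 \ βa) \ (insert u W))
      ⊆ ((N n T \ βz) \ (insert u W)) ∪ ((N n T' \ βa) \ W) := by
    intro v hv
    have a1 := f1 v; have a2 := f2 v; have a3 := f3 v
    have a4 : v ∈ βz → v ∈ βa := fun h => hzβ h
    have a5 : v = u → v ∉ βa := by rintro rfl; exact hu
    rw [mem_union, mem_sdiff, mem_sdiff, mem_sdiff, mem_sdiff] at hv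
    rw [mem_union, mem_sdiff, mem_sdiff, mem_sdiff, mem_sdiff]
    rcases hv with ⟨⟨h, hb⟩, hW⟩ | ⟨⟨h, hb⟩, hW⟩
    · by_cases hvu : v = u
      · exact Or.inr ⟨⟨a2 (a5 hvu) h, a5 hvu⟩, hW⟩
      · exact Or.inl ⟨⟨a1 h, hb⟩, fun hh => (mem_insert.1 hh).elim hvu hW⟩
    · rcases a3 h with h' | h'
      · exact Or.inr ⟨⟨h', hb⟩, fun hh => hW (mem_insert_of_mem hh)⟩
      · exact Or.inl ⟨⟨h', fun hh => hb (a4 hh)⟩, hW⟩
  have g2 : ((N n T1 \ βz) \ W) ∩ ((N n T2 \ βa) \ (insert u W))
      ⊆ ((N n T \ βz) \ (insert u W)) ∩ ((N n T' \ βa) \ W) := by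
    intro v hv
    have a1 := f1 v; have a2 := f2 v; have a3 := f3 v
    rw [mem_inter, mem_sdiff, mem_sdiff, mem_sdiff, mem_sdiff] at hv
    rw [mem_inter, mem_sdiff, mem_sdiff, mem_sdiff, mem_sdiff]
    obtain ⟨⟨⟨h, hb⟩, hW⟩, ⟨⟨h', hb'⟩, hW'⟩⟩ := hv
    exact ⟨⟨⟨a1 h, hb⟩, hW'⟩, ⟨⟨a2 hb' h, hb'⟩, hW⟩⟩
  have d1 := card_union_add_card_inter ((N n T1 \ βz) \ W) ((N n T2 \ βa) \ (insert u W))
  have d2 := card_union_add_card_inter ((N n T \ βz) \ (insert u W)) ((N n T' \ βa) \ W)
  have k1 := card_le_card g1
  have k2 := card_le_card g2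
  omega

/-- rows of a relation -/
noncomputable def row (B : V → V → Prop) (a : V) : Finset V := univ.filter (B a)

lemma mem_row {B : V → V → Prop} {a x : V} : x ∈ row B a ↔ B a x := by simp [row]

/-- gap row -/
noncomputable def Gr (B U : V → V → Prop) (a : V) : Finset V :=
  univ.filter fun x => U a x ∧ ¬ B a x

noncomputable def Pr (n B U : V → V → Prop) (z : V) : Finset V :=
  univ.filter fun x => (∀ z', n z' z → U z' x) ∧ ∃ z', n z' z ∧ ¬ B z' x

/-- `β_z = ⋂_{z' ∈ N^-[z]} N[B_{z'}]` -/
noncomputable def bz (n B : V → V → Prop) (z : V) : Finset V :=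
  univ.filter fun u => ∀ z', n z' z → u ∈ N n (row B z')

noncomputable def Qr (n B U : V → V → Prop) (a : V) : Finset V :=
  N n (Gr B U a) \ N n (row B a)

noncomputable def Kr (n B U : V → V → Prop) (z : V) : Finset V :=
  N n (Pr n B U z) \ bz n B z

lemma hallP {n B U : V → V → Prop}
    (hR : ∀ a, ∀ T ⊆ Gr B U a, T.card ≤ (N n T \ N n (row B a)).card)
    (z : V) (T : Finset V) (hT : T ⊆ Pr n B U z) :
    T.card ≤ (N n T \ bz n B z).card := by
  have key : ∀ S : Finset V, (∀ s ∈ S, n s z) →
      (T.filter fun x => ∃ s ∈ S, ¬ B s x).card ≤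
      (N n (T.filter fun x => ∃ s ∈ S, ¬ B s x) \
        univ.filter fun u => ∀ s ∈ S, u ∈ N n (row B s)).card := by
    intro S
    induction S using Finset.induction_on with
    | empty => intro _; simp
    | insert s S hs ih =>
      intro hS
      have ih' := ih fun t ht => hS t (mem_insert_of_mem ht)
      have hsz := hS s (mem_insert_self _ _)
      set T0 := T.filter fun x => ∃ s ∈ S, ¬ B s x with hT0
      set R := T.filter fun x => (∀ t ∈ S, B t x) ∧ ¬ B s x with hRd
      have hRG : R ⊆ Gr B U s := by
        intro x hx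
        simp only [hRd, mem_filter] at hx
        have := hT hx.1
        simp only [Pr, mem_filter, mem_univ, true_and] at this
        simp only [Gr, mem_filter, mem_univ, true_and]
        exact ⟨this.1 s hsz, hx.2.2⟩
      have h1 := hR s R hRG
      have hun : (T.filter fun x => ∃ t ∈ insert s S, ¬ B t x) = T0 ∪ R := by
        ext x
        simp only [hT0, hRd, mem_filter, mem_union, mem_insert]
        constructor
        · rintro ⟨hx, t, ht, hb⟩
          by_cases hc : ∃ t ∈ S, ¬ B t x
          · exact Or.inl ⟨hx, hc⟩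
          · push Not at hc
            rcases ht with rfl | ht
            · exact Or.inr ⟨hx, hc, hb⟩
            · exact absurd (hc t ht) hb
        · rintro (⟨hx, t, ht, hb⟩ | ⟨hx, _, hb⟩)
          · exact ⟨hx, t, Or.inr ht, hb⟩
          · exact ⟨hx, s, Or.inl rfl, hb⟩
      have hdis : Disjoint (N n T0 \ univ.filter fun u => ∀ s ∈ S, u ∈ N n (row B s))
          (N n R \ N n (row B s)) := by
        rw [Finset.disjoint_left]
        intro u h1 h2
        simp only [mem_sdiff, mem_filter, mem_univ, true_and] at h1 h2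
        apply h1.2
        intro t ht
        obtain ⟨x, hx, hn⟩ := mem_N.1 h2.1
        simp only [hRd, mem_filter] at hx
        exact mem_N.2 ⟨x, mem_row.2 (hx.2.1 t ht), hn⟩
      have hsub : (N n T0 \ univ.filter fun u => ∀ s ∈ S, u ∈ N n (row B s)) ∪
          (N n R \ N n (row B s)) ⊆
          (N n (T0 ∪ R) \ univ.filter fun u => ∀ t ∈ insert s S, u ∈ N n (row B t)) := by
        intro u hu
        simp only [mem_union, mem_sdiff, mem_filter, mem_univ, true_and, mem_insert] at hu ⊢
        rcases hu with ⟨h, h'⟩ | ⟨h, h'⟩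
        · exact ⟨N_mono subset_union_left h, fun hh => h' fun t ht => hh t (Or.inr ht)⟩
        · exact ⟨N_mono subset_union_right h, fun hh => h' (hh s (Or.inl rfl))⟩
      rw [hun]
      calc (T0 ∪ R).card ≤ T0.card + R.card := card_union_le _ _
        _ ≤ _ := Nat.add_le_add ih' h1
        _ = _ := (card_union_of_disjoint hdis).symm
        _ ≤ _ := card_le_card hsub
  have h := key (univ.filter fun s => n s z) (fun s hs => (mem_filter.1 hs).2)
  refine (card_le_card ?_).trans (h.trans (card_le_card ?_))
  · intro x hx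
    have := hT hx
    simp only [Pr, mem_filter, mem_univ, true_and] at this
    obtain ⟨s, hs, hb⟩ := this.2
    exact mem_filter.2 ⟨hx, s, mem_filter.2 ⟨mem_univ _, hs⟩, hb⟩
  · intro u hu
    rw [mem_sdiff] at hu ⊢
    refine ⟨N_mono (filter_subset _ _) hu.1, fun hh => hu.2 ?_⟩
    rw [mem_filter]
    refine ⟨mem_univ _, fun s hs => ?_⟩
    exact (mem_filter.1 hh).2 s (mem_filter.1 hs).2

lemma hallQ {n B U : V → V → Prop}
    (hC : ∀ x, ∀ T : Finset V, (∀ a ∈ T, U a x ∧ ¬ B a x) →
      T.card ≤ ((N n T).filter fun z => ∀ z', n z' z → U z' x).card)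
    (u : V) (T : Finset V) (hT : ∀ a ∈ T, u ∈ Qr n B U a) :
    T.card ≤ ((N n T).filter fun z => u ∈ Kr n B U z).card := by
  have key : ∀ S : Finset V, (∀ s ∈ S, n s u) →
      (T.filter fun a => ∃ s ∈ S, U a s).card ≤
      ((N n T).filter fun z => u ∈ Kr n B U z ∧ ∃ s ∈ S, ∀ z', n z' z → U z' s).card := by
    intro S
    induction S using Finset.induction_on with
    | empty => intro _; simp
    | insert s S hs ih =>
      intro hS
      have ih' := ih fun t ht => hS t (mem_insert_of_mem ht)
      have hsu := hS s (mem_insert_self _ _)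
      set T0 := T.filter fun a => ∃ s ∈ S, U a s with hT0
      set R := T.filter fun a => U a s ∧ ∀ t ∈ S, ¬ U a t with hRd
      have hnB : ∀ a ∈ T, ¬ B a s := by
        intro a ha hb
        have := hT a ha
        simp only [Qr, mem_sdiff] at this
        exact this.2 (mem_N.2 ⟨s, mem_row.2 hb, hsu⟩)
      have h1 := hC s R (by
        intro a ha
        simp only [hRd, mem_filter] at ha
        exact ⟨ha.2.1, hnB a ha.1⟩)
      have hun : (T.filter fun a => ∃ t ∈ insert s S, U a t) ⊆ T0 ∪ R := by
        intro a ha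
        simp only [hT0, hRd, mem_filter, mem_union, mem_insert] at ha ⊢
        obtain ⟨haT, t, ht, hb⟩ := ha
        by_cases hc : ∃ t ∈ S, U a t
        · exact Or.inl ⟨haT, hc⟩
        · push Not at hc
          rcases ht with rfl | ht
          · exact Or.inr ⟨haT, hb, hc⟩
          · exact absurd hb (hc t ht)
      have hdis : Disjoint
          ((N n T).filter fun z => u ∈ Kr n B U z ∧ ∃ s ∈ S, ∀ z', n z' z → U z' s)
          ((N n R).filter fun z => ∀ z', n z' z → U z' s) := by
        rw [Finset.disjoint_left]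
        intro z h1 h2
        simp only [mem_filter] at h1 h2
        obtain ⟨t, ht, hz⟩ := h1.2.2
        obtain ⟨a, ha, hn⟩ := mem_N.1 h2.1
        simp only [hRd, mem_filter] at ha
        exact ha.2.2 t ht (hz a hn)
      have hsub : ((N n T).filter fun z => u ∈ Kr n B U z ∧ ∃ s ∈ S, ∀ z', n z' z → U z' s) ∪
          ((N n R).filter fun z => ∀ z', n z' z → U z' s) ⊆
          ((N n T).filter fun z => u ∈ Kr n B U z ∧
            ∃ t ∈ insert s S, ∀ z', n z' z → U z' t) := by
        intro z hz
        simp only [mem_union, mem_filter, mem_insert] at hz ⊢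
        rcases hz with ⟨h, h', t, ht, hh⟩ | ⟨h, h'⟩
        · exact ⟨h, h', t, Or.inr ht, hh⟩
        · obtain ⟨a, ha, hn⟩ := mem_N.1 h
          have haT : a ∈ T := (mem_filter.1 ha).1
          refine ⟨mem_N.2 ⟨a, haT, hn⟩, ?_, s, Or.inl rfl, h'⟩
          simp only [Kr, mem_sdiff]
          refine ⟨mem_N.2 ⟨s, ?_, hsu⟩, ?_⟩
          · simp only [Pr, mem_filter, mem_univ, true_and]
            exact ⟨h', a, hn, hnB a haT⟩
          · simp only [bz, mem_filter, mem_univ, true_and]
            intro hh
            have := hT a haT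
            simp only [Qr, mem_sdiff] at this
            exact this.2 (hh a hn)
      calc _ ≤ (T0 ∪ R).card := card_le_card hun
        _ ≤ T0.card + R.card := card_union_le _ _
        _ ≤ _ := Nat.add_le_add ih' h1
        _ = _ := (card_union_of_disjoint hdis).symm
        _ ≤ _ := card_le_card hsub
  have h := key (univ.filter fun s => n s u) (fun s hs => (mem_filter.1 hs).2)
  refine (card_le_card ?_).trans (h.trans (card_le_card ?_))
  · intro a ha
    have := hT a ha
    simp only [Qr, mem_sdiff] at this
    obtain ⟨x, hx, hn⟩ := mem_N.1 this.1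
    simp only [Gr, mem_filter, mem_univ, true_and] at hx
    exact mem_filter.2 ⟨ha, x, mem_filter.2 ⟨mem_univ _, hn⟩, hx.1⟩
  · intro z hz
    rw [mem_filter] at hz ⊢
    exact ⟨hz.1, hz.2.1⟩

/-- the core inequality (★), unweighted -/
theorem star {n B U : V → V → Prop}
    (hR : ∀ a, ∀ T ⊆ Gr B U a, T.card ≤ (N n T \ N n (row B a)).card)
    (hC : ∀ x, ∀ T : Finset V, (∀ a ∈ T, U a x ∧ ¬ B a x) →
      T.card ≤ ((N n T).filter fun z => ∀ z', n z' z → U z' x).card) :
    (∑ z, (Pr n B U z).card) + ∑ a, (Qr n B U a).card ≤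
      (∑ a, (Gr B U a).card) + ∑ z, (Kr n B U z).card := by
  have key : ∀ W : Finset V,
      (∑ z, m n (Pr n B U z) (bz n B z) W) + ∑ u ∈ W, (univ.filter fun a => u ∈ Qr n B U a).card ≤
      (∑ a, m n (Gr B U a) (N n (row B a)) W) +
        ∑ u ∈ W, (univ.filter fun z => u ∈ Kr n B U z).card := by
    intro W
    induction W using Finset.induction_on with
    | empty =>
      simp only [sum_empty, add_zero]
      have : (∑ z, m n (Pr n B U z) (bz n B z) ∅) = 0 := by
        apply sum_eq_zero
        intro z _
        exact m_empty fun T hT => hallP hR z T hT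
      rw [this]; exact Nat.zero_le _
    | insert u W hu ih =>
      rw [sum_insert hu, sum_insert hu]
      set S := univ.filter fun a => u ∈ Qr n B U a ∧
        m n (Gr B U a) (N n (row B a)) (insert u W) = m n (Gr B U a) (N n (row B a)) W with hS
      set S' := univ.filter fun z => u ∈ Kr n B U z ∧
        m n (Pr n B U z) (bz n B z) (insert u W) = m n (Pr n B U z) (bz n B z) W with hS'
      have hSS : S.card ≤ S'.card := by
        have h1 := hallQ hC u S (by
          intro a ha
          simp only [hS, mem_filter, mem_univ, true_and] at ha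
          exact ha.1)
        refine h1.trans (card_le_card ?_)
        intro z hz
        rw [mem_filter] at hz
        obtain ⟨a, ha, hn⟩ := mem_N.1 hz.1
        simp only [hS, mem_filter, mem_univ, true_and] at ha
        simp only [hS', mem_filter, mem_univ, true_and]
        refine ⟨hz.2, le_antisymm ?_ m_mono⟩
        have hbz : bz n B z ⊆ N n (row B a) := by
          intro v hv
          simp only [bz, mem_filter, mem_univ, true_and] at hv
          exact hv a hn
        have hun : u ∉ N n (row B a) := by
          have := ha.1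
          simp only [Qr, mem_sdiff] at this
          exact this.2
        have := exch (n := n) (P := Pr n B U z) (G := Gr B U a) (βz := bz n B z)
          (βa := N n (row B a)) (Ba := row B a) (W := W) (u := u)
          (by
            intro x hx hb
            simp only [Pr, mem_filter, mem_univ, true_and] at hx
            simp only [Gr, mem_filter, mem_univ, true_and]
            exact ⟨hx.1 a hn, fun h => hb (mem_row.2 h)⟩)
          (by
            intro x hx hb
            simp only [Gr, mem_filter, mem_univ, true_and] at hx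
            exact hx.2 (mem_row.1 hb))
          rfl hbz hun
        rw [ha.2] at this
        omega
      have hA : (∑ z, m n (Pr n B U z) (bz n B z) (insert u W)) + S'.card ≤
          (∑ z, m n (Pr n B U z) (bz n B z) W) + (univ.filter fun z => u ∈ Kr n B U z).card := by
        rw [hS', card_filter, card_filter, ← sum_add_distrib, ← sum_add_distrib]
        apply sum_le_sum
        intro z _
        by_cases hk : u ∈ Kr n B U z
        · by_cases hm : m n (Pr n B U z) (bz n B z) (insert u W) = m n (Pr n B U z) (bz n B z) W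
          · simp [hk, hm]
          · simp only [hk, hm, and_false, if_false, if_true]
            exact m_succ
        · simp only [hk, false_and, if_false, add_zero]
          exact m_same hk
      have hB : (∑ a, m n (Gr B U a) (N n (row B a)) W) +
          (univ.filter fun a => u ∈ Qr n B U a).card ≤
          (∑ a, m n (Gr B U a) (N n (row B a)) (insert u W)) + S.card := by
        rw [hS, card_filter, card_filter, ← sum_add_distrib, ← sum_add_distrib]
        apply sum_le_sum
        intro a _
        have hmono := m_mono (n := n) (G := Gr B U a) (β := N n (row B a)) (W := W) (u := u)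
        by_cases hk : u ∈ Qr n B U a
        · by_cases hm : m n (Gr B U a) (N n (row B a)) (insert u W) =
              m n (Gr B U a) (N n (row B a)) W
          · simp [hk, hm]
          · simp only [hk, hm, and_false, if_false, if_true]
            omega
        · simp only [hk, false_and, if_false, add_zero]
          exact hmono
      omega
  have h := key univ
  simp only [m_univ] at h
  have swap : ∀ R : V → Finset V, ∑ u, (univ.filter fun a => u ∈ R a).card = ∑ a, (R a).card := by
    intro R
    simp only [card_filter]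
    rw [sum_comm]
    apply sum_congr rfl
    intro a _
    rw [← card_filter]
    congr 1
    ext x; simp
  rw [swap, swap] at h
  exact h

end Vale.Agent.P038.H781
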